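import Vale.Agent.P237.Quant.TailData.N55.tailN55N0Part0
import Vale.Agent.P237.Quant.TailData.N55.tailN55N0Part1
import Vale.Agent.P237.Quant.TailData.N55.tailN55N0Part2
import Vale.Agent.P237.Quant.TailData.N55.tailN55N0Part3
import Vale.Agent.P237.Quant.TailData.N55.tailN55N0Part4
import Vale.Agent.P237.Quant.TailData.N55.tailN55N0Part5

/-!
Tail calibration tailN55N0 in dimension 55. The check. Generated data, checked by the kernel.
-/

set_option maxRecDepth 100000
set_option linter.all false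

namespace Vale.Agent.P237.Quant.TailData

open TailCert


/-- The calibration. -/
noncomputable def tailN55N0 : Cfg :=
  tailN55N0Base.withIvals (List.flatten [tailN55N0L0, tailN55N0L1, tailN55N0L2, tailN55N0L3, tailN55N0L4, tailN55N0L5, tailN55N0L6, tailN55N0L7, tailN55N0L8, tailN55N0L9, tailN55N0L10, tailN55N0L11, tailN55N0L12, tailN55N0L13, tailN55N0L14, tailN55N0L15, tailN55N0L16, tailN55N0L17, tailN55N0L18, tailN55N0L19, tailN55N0L20, tailN55N0L21, tailN55N0L22])

theorem tailN55N0_parts : [tailN55N0L0, tailN55N0L1, tailN55N0L2, tailN55N0L3, tailN55N0L4, tailN55N0L5, tailN55N0L6, tailN55N0L7, tailN55N0L8, tailN55N0L9, tailN55N0L10, tailN55N0L11, tailN55N0L12, tailN55N0L13, tailN55N0L14, tailN55N0L15, tailN55N0L16, tailN55N0L17, tailN55N0L18, tailN55N0L19, tailN55N0L20, tailN55N0L21, tailN55N0L22].Forall fun l => tailN55N0Base.partUsed tailN55N0Used l = true := by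
  simp only [List.forall_cons, List.Forall]
  exact ⟨tailN55N0L0_ok, tailN55N0L1_ok, tailN55N0L2_ok, tailN55N0L3_ok, tailN55N0L4_ok, tailN55N0L5_ok, tailN55N0L6_ok, tailN55N0L7_ok, tailN55N0L8_ok, tailN55N0L9_ok, tailN55N0L10_ok, tailN55N0L11_ok, tailN55N0L12_ok, tailN55N0L13_ok, tailN55N0L14_ok, tailN55N0L15_ok, tailN55N0L16_ok, tailN55N0L17_ok, tailN55N0L18_ok, tailN55N0L19_ok, tailN55N0L20_ok, tailN55N0L21_ok, tailN55N0L22_ok⟩

theorem tailN55N0_check : tailN55N0.check = true :=
  Cfg.check_of_parts (by decide +kernel) tailN55N0_parts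

end Vale.Agent.P237.Quant.TailData
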