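import Vale.Agent.P237.Quant.TailData.N55.tailN55P1Base

/-!
Tail calibration tailN55P1 in dimension 55. A part of the intervals. Generated data, checked by the kernel.
-/

set_option maxRecDepth 100000
set_option linter.all false

namespace Vale.Agent.P237.Quant.TailData

open TailCert


/-- An interval. -/
noncomputable def tailN55P1I126 : Ival :=
  Decode.ival 0x400000025a49200100000080000004b4921eb1c88cf58e4461d035d5870213e694381fd0fb0da30f8242b42273ddc30a1000022e1c0e6b76edff284fe726b636e00000000000000007b425ed097b425d60000000000000000000000000000000000000200000000001001d21765bd5ed7619fc0039780000004a5c480020000010000000918dd3d6391180c8f8160000000000000000000000187b39f2533300c9d6ad44878f8fd1717ec8a3e4000000008b6f43e0ac3b0000312cb6e88b2faf20000000000955e4280d8a800000c348f06a2e42fa08001e37c4cff3ff28567905074a3a7e701a46c8b180000080000000000a40e950f989bcfa4f65e8021cc000004580b40400004000004441bd91f02c0d00d40000000000000000002bff0d4c23b105a8c63b6b49ee58d2ece7100002fe2e0cec4f13a03844188ac4c0551e80000a9482306e69930016028f88893b27f201b22fbf4a27b6b36a1356345f5e76a9de2000000800000000008e0c359870cd0bc09926001dc40000107d1b0400010000041eaa83403506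e6e800000000000000008c0fa49eb93348495501d58ada432382038499aab870902ff08c79d0b33adce0012a88df05d4aad80e89ffdc99ce98641bb65bd22a2158fe1701d296ce343c300000040000000000400582f3b15b463e66a8800db600000832d10200008000020cb3c0dcdd034776000000000000000027b81e6db232475444ca8dd9ed99a06f026758fae48530bbfa6f0c4a3860b5ea00c58431ee6bb3ee05698326734c6e2a07b1083dba462043049d0e6fb8af42a800000200000000002002c38321f3b1fa6c856006db000004172501000040000105c2b068eec1388000000000000000000f022f2027a74f23160dd0f1bc26fc84815b39240aab64bdfd9c0c6e293de27900700adc3981c007024fdaf1d501640702d86fc84b6484fb81755f3902e08a3b000001000000000010016890120430f913b1c0036d800002069d40800020000080000027100000000000000000000000000000000000000000000000000000000127c9c938ba47c97f8c11576a13330600c2c7b24677a16c00000000000000000000000000000000000000000000000000000080000000000800b5ef036d27e0921c1001b6c00000fcbc204000100000400000000000270fe00000000000000000000000000000000000000000000000026ebf4b1fc83e117f9f847cb7c92336c0000000000000000000000000000000000000000000000000000000000000000000000000000000040058dbd5151cfcefcf2000db6004800000a002000000010000000280001ffce0000000000000000fff47f7bc000887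a080092a380450cac3733c000b0c000011404000000080000002ffe77fe780000000000000003ffd1fdef000221e820023abb3785f4c7a3ef4002b5000006681000000020000000bff3dff180000000000000000fff47f7bc000887a0800882872ea6bacb4b9d800ad4000050a04000000080000002ff8c7d0800000000000000003ffd1fdef000221e820022e179891c70a782b4002b5000028d01000000020000000be841d6640000000000000000fff47f7bc000887a08008c1109c7f96deae36800ad4000200004000000080000000eb327fffc00022b5ffa019d57e5920001b58039c4007fdf407746a5288000299e50a203338800f9bf407c002e0100418b62c0cfabf0c2a07dfffffffff9672610207ffffef00a7d651c08100000097e6de7658107fffff9dffc96b61840bd7226ca002c72881fdeb9ca98a289cec40fe00c0000097ff4811c81bf012d93e1c10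

/-- A part of the intervals. -/
noncomputable def tailN55P1L20 : List Ival :=
  [tailN55P1I126]

theorem tailN55P1L20_ok : tailN55P1Base.partUsed tailN55P1Used tailN55P1L20 = true := by
  decide +kernel

end Vale.Agent.P237.Quant.TailData
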